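import Vale.Agent.P116.KF.FL2

/-!
# Gluing modifications inside finitely many disjoint closed sets (for ENDP-6)
-/

open Set Filter Topology Metric Bornology

namespace Vale.Agent.P116.KF

open H906 Cl

/-- the glued function -/
noncomputable def glueF (W : Set (Set ℂ)) (u : ℂ → ℝ) (v : Set ℂ → ℂ → ℝ) (z : ℂ) : ℝ := by
  classical
  exact if h : ∃ w ∈ W, z ∈ w then v h.choose z else u z

variable {K : Set ℂ} {W : Set (Set ℂ)} {u ρ : ℂ → ℝ} {v : Set ℂ → ℂ → ℝ}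

lemma glueF_mem (hd : ∀ w ∈ W, ∀ w' ∈ W, w ≠ w' → Disjoint w w') {w : Set ℂ} (hw : w ∈ W) {z : ℂ}
    (hz : z ∈ w) : glueF W u v z = v w z := by
  have h : ∃ w ∈ W, z ∈ w := ⟨w, hw, hz⟩
  unfold glueF
  rw [dif_pos h]
  have h1 := h.choose_spec
  have : h.choose = w := by
    by_contra hne
    exact disjoint_left.1 (hd _ h1.1 _ hw hne) h1.2 hz
  rw [this]

lemma glueF_notMem {z : ℂ} (hz : ∀ w ∈ W, z ∉ w) : glueF W u v z = u z := by
  unfold glueF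
  rw [dif_neg]
  rintro ⟨w, hw, h⟩
  exact hz w hw h

/-- near each point the glued function is `u` or one of the `v w` -/
lemma glueF_loc (hW : W.Finite) (hc : ∀ w ∈ W, IsClosed w)
    (hd : ∀ w ∈ W, ∀ w' ∈ W, w ≠ w' → Disjoint w w')
    (hv : ∀ w ∈ W, ∀ z, z ∉ w → v w z = u z) (a : ℂ) :
    (∀ᶠ z in 𝓝 a, glueF W u v z = u z) ∨ ∃ w ∈ W, ∀ᶠ z in 𝓝 a, glueF W u v z = v w z := by
  by_cases h : ∃ w ∈ W, a ∈ w
  · right
    obtain ⟨w, hw, haw⟩ := h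
    refine ⟨w, hw, ?_⟩
    have h1 : IsOpen (⋃ w' ∈ W \ {w}, w')ᶜ := by
      rw [isOpen_compl_iff]
      exact (hW.subset sdiff_subset).isClosed_biUnion fun w' hw' => hc w' hw'.1
    have h2 : a ∈ (⋃ w' ∈ W \ {w}, w')ᶜ := by
      intro hcon
      obtain ⟨w', hw', haw'⟩ := mem_iUnion₂.1 hcon
      exact disjoint_left.1 (hd w' hw'.1 w hw hw'.2) haw' haw
    filter_upwards [h1.mem_nhds h2] with z hz
    by_cases hzw : z ∈ w
    · exact glueF_mem hd hw hzw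
    · rw [hv w hw z hzw]
      refine glueF_notMem fun w' hw' hzw' => ?_
      by_cases hne : w' = w
      · exact hzw (hne ▸ hzw')
      · exact hz (mem_iUnion₂.2 ⟨w', ⟨hw', hne⟩, hzw'⟩)
  · left
    push Not at h
    have h1 : IsOpen (⋃ w' ∈ W, w')ᶜ := by
      rw [isOpen_compl_iff]
      exact hW.isClosed_biUnion fun w' hw' => hc w' hw'
    have h2 : a ∈ (⋃ w' ∈ W, w')ᶜ := by
      intro hcon
      obtain ⟨w', hw', haw'⟩ := mem_iUnion₂.1 hcon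
      exact h w' hw' haw'
    filter_upwards [h1.mem_nhds h2] with z hz
    exact glueF_notMem fun w' hw' hzw' => hz (mem_iUnion₂.2 ⟨w', hw', hzw'⟩)

/-- **gluing** -/
theorem glue (hK : IsCompact K) (hW : W.Finite) (hc : ∀ w ∈ W, IsClosed w)
    (hd : ∀ w ∈ W, ∀ w' ∈ W, w ≠ w' → Disjoint w w') (hu : ContinuousOn u Kᶜ)
    (hρ : ContinuousOn ρ Kᶜ) (hρ0 : ∀ z ∈ Kᶜ, 0 ≤ ρ z) (hg : UGr Kᶜ u ρ)
    (hv : ∀ w ∈ W, ContinuousOn (v w) Kᶜ ∧ (∀ z, z ∉ w → v w z = u z) ∧ UGr Kᶜ (v w) ρ) :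
    ∃ V : ℂ → ℝ, ContinuousOn V Kᶜ ∧ UGr Kᶜ V ρ ∧ (∀ w ∈ W, ∀ z ∈ w, V z = v w z) ∧
      (∀ z, (∀ w ∈ W, z ∉ w) → V z = u z) := by
  have hKo : IsOpen Kᶜ := hK.isClosed.isOpen_compl
  have hloc := glueF_loc (v := v) hW hc hd fun w hw => (hv w hw).2.1
  have hmu : Maj Kᶜ u ρ := ugr_maj hKo hg hρ hρ0
  refine ⟨glueF W u v, ?_, maj_ugr ⟨hρ, hρ0, fun a ha ε hε => ?_⟩,
    fun w hw z hz => glueF_mem hd hw hz, fun z hz => glueF_notMem hz⟩
  · intro a ha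
    refine ContinuousAt.continuousWithinAt ?_
    rcases hloc a with h | ⟨w, hw, h⟩
    · exact (hu.continuousAt (hKo.mem_nhds ha)).congr (h.mono fun z hz => hz.symm)
    · exact ((hv w hw).1.continuousAt (hKo.mem_nhds ha)).congr (h.mono fun z hz => hz.symm)
  · have key : ∀ f : ℂ → ℝ, Maj Kᶜ f ρ → (∀ᶠ z in 𝓝 a, glueF W u v z = f z) →
        ∃ δ > 0, ∀ x ∈ ball a δ, ∀ y ∈ ball a δ,
          |glueF W u v x - glueF W u v y| ≤ (ρ a + ε) * ‖x - y‖ := by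
      intro f hf hev
      obtain ⟨δ, hδ, h1⟩ := hf.lip a ha ε hε
      obtain ⟨δ', hδ', h2⟩ := Metric.eventually_nhds_iff_ball.1 hev
      refine ⟨min δ δ', lt_min hδ hδ', fun x hx y hy => ?_⟩
      rw [h2 x (ball_subset_ball (min_le_right _ _) hx),
        h2 y (ball_subset_ball (min_le_right _ _) hy)]
      exact h1 x (ball_subset_ball (min_le_left _ _) hx) y (ball_subset_ball (min_le_left _ _) hy)
    rcases hloc a with h | ⟨w, hw, h⟩
    · exact key u hmu h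
    · exact key (v w) (ugr_maj hKo (hv w hw).2.2 hρ hρ0) h

end Vale.Agent.P116.KF
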