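import Vale.Agent.P116.KF.H651.Glue
import Vale.Agent.P116.G.Def

/-!
# The sum over the pieces, by nodes (for ENDP-6)
-/

open Set Filter Topology Metric Bornology

namespace Vale.Agent.P116.KF

open H906

variable {K : Set ℂ}

/-- a connected subset of a level is inside a node -/
lemma exists_node_of_piece (hK : IsCompact K) {m : ℕ} {P : Set ℂ} (hP : IsPreconnected P)
    (hne : P.Nonempty) (hPm : P ⊆ lev K m) : ∃ w ∈ nodes K m, P ⊆ w := by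
  obtain ⟨z, hz⟩ := hne
  obtain ⟨y, hy, hzy⟩ := exists_node hK (hPm hz)
  refine ⟨nd K m y, ⟨y, hy, rfl⟩, ?_⟩
  rw [← nd_eq hzy]
  exact hP.subset_connectedComponentIn hz hPm

/-- different nodes of a level are disjoint -/
lemma nodes_disj' {m : ℕ} : ∀ w ∈ nodes K m, ∀ w' ∈ nodes K m, w ≠ w' → Disjoint w w' := by
  rintro _ ⟨x, hx, rfl⟩ _ ⟨y, hy, rfl⟩ hne
  rw [disjoint_left]
  intro z hz hz'
  exact hne ((nd_eq hz).symm.trans (nd_eq hz'))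

/-- **the sum over the pieces**: the pieces in a node `w ≠ Q` contribute at most `b w` -/
theorem sum_pieces_le (hK : IsCompact K) {m : ℕ} {x : ℂ} {S : Set (Set ℂ)}
    (hS : ∀ P ∈ S, IsPreconnected P ∧ P.Nonempty ∧ P ⊆ lev K m) {V : ℂ → ℝ}
    {v : Set ℂ → ℂ → ℝ} (hV : ∀ w ∈ nodes K m, w ≠ nd K m x → ∀ z ∈ w, V z = v w z)
    {b : Set ℂ → ℝ} {ε : ℝ}
    (hb : ∀ w ∈ nodes K m, w ≠ nd K m x → ∀ J : Finset (Set ℂ), (∀ P ∈ J, P ∈ S ∧ P ⊆ w) →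
      ∑ P ∈ J, diam (v w '' (P \ K)) ^ 2 ≤ b w)
    (hε : ∀ J : Finset (Set ℂ), (∀ w ∈ J, w ∈ nodes K m ∧ w ≠ nd K m x) → ∑ w ∈ J, b w ≤ ε)
    (J : Finset (Set ℂ)) (hJ : ∀ P ∈ J, P ∈ S ∧ Disjoint P (nd K m x)) :
    ∑ P ∈ J, diam (V '' (P \ K)) ^ 2 ≤ ε := by
  classical
  have h1 : ∀ P ∈ J, ∃ w, (w ∈ nodes K m ∧ w ≠ nd K m x) ∧ P ⊆ w := by
    intro P hP
    obtain ⟨hPS, hPd⟩ := hJ P hP
    obtain ⟨hc, hne, hsub⟩ := hS P hPS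
    obtain ⟨w, hw, hPw⟩ := exists_node_of_piece hK hc hne hsub
    refine ⟨w, ⟨hw, ?_⟩, hPw⟩
    rintro rfl
    obtain ⟨z, hz⟩ := hne
    exact disjoint_left.1 hPd hz (hPw hz)
  choose! φ hφ hφP using h1
  have h2 : ∀ P ∈ J, φ P ∈ J.image φ := fun P hP => Finset.mem_image_of_mem φ hP
  rw [← Finset.sum_fiberwise_of_maps_to h2]
  refine (Finset.sum_le_sum fun w hw => ?_).trans (hε (J.image φ) fun w hw => ?_)
  · obtain ⟨P₀, hP₀, rfl⟩ := Finset.mem_image.1 hw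
    have h3 := hb (φ P₀) (hφ P₀ hP₀).1 (hφ P₀ hP₀).2 (J.filter fun P => φ P = φ P₀)
      fun P hP => by
        obtain ⟨hPJ, hPe⟩ := Finset.mem_filter.1 hP
        exact ⟨(hJ P hPJ).1, hPe ▸ hφP P hPJ⟩
    refine le_trans (le_of_eq ?_) h3
    refine Finset.sum_congr rfl fun P hP => ?_
    obtain ⟨hPJ, hPe⟩ := Finset.mem_filter.1 hP
    rw [image_congr fun z hz => hV (φ P₀) (hφ P₀ hP₀).1 (hφ P₀ hP₀).2 z
      ((hPe ▸ hφP P hPJ : P ⊆ φ P₀) hz.1)]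
  · obtain ⟨P₀, hP₀, rfl⟩ := Finset.mem_image.1 hw
    exact hφ P₀ hP₀

end Vale.Agent.P116.KF
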